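import Vale.Agent.Lib.P356.helper23.Defs

/-!
# P356-D (pool job 408): the entropy of a probability vector is at most the log of the size of
its support (Jensen for the concave function x -> - x log x).
-/

namespace Vale.Agent.Lib.P356.H45

open Matrix
open Vale.Agent.Lib.P356

theorem sum_negMulLog_le {n : Type*} [Fintype n] (lam : n → ℝ) (h0 : ∀ i, 0 ≤ lam i)
    (h1 : ∑ i, lam i = 1) :
    ∑ i, Real.negMulLog (lam i) ≤ Real.log (Fintype.card {i // lam i ≠ 0}) := by
  classical
  have hcard : Fintype.card {i // lam i ≠ 0}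
      = (Finset.univ.filter (fun i => lam i ≠ 0)).card := by
    rw [Fintype.card_subtype]
  have hsumS : ∑ i ∈ Finset.univ.filter (fun i => lam i ≠ 0), lam i = 1 := by
    rw [← h1, Finset.sum_filter]
    refine Finset.sum_congr rfl fun i _ => ?_
    by_cases hi : lam i = 0
    · rw [if_neg (not_not.mpr hi), hi]
    · rw [if_pos hi]
  have hnegS : ∑ i, Real.negMulLog (lam i)
      = ∑ i ∈ Finset.univ.filter (fun i => lam i ≠ 0), Real.negMulLog (lam i) := by
    rw [Finset.sum_filter]
    refine Finset.sum_congr rfl fun i _ => ?_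
    by_cases hi : lam i = 0
    · rw [if_neg (not_not.mpr hi), hi, Real.negMulLog_zero]
    · rw [if_pos hi]
  rw [hcard, hnegS]
  generalize Finset.univ.filter (fun i => lam i ≠ 0) = S at hsumS ⊢
  have hne : S.Nonempty := by
    by_contra hemp
    rw [Finset.not_nonempty_iff_eq_empty] at hemp
    rw [hemp, Finset.sum_empty] at hsumS
    exact zero_ne_one hsumS
  have hk : (0 : ℝ) < (S.card : ℝ) := by exact_mod_cast hne.card_pos
  have hk' : (0 : ℝ) < 1 / (S.card : ℝ) := by positivity
  have hJ := Real.concaveOn_negMulLog.le_map_sum (t := S) (w := fun _ => (1 : ℝ) / S.card)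
    (p := lam) (fun i _ => hk'.le)
    (by rw [Finset.sum_const, nsmul_eq_mul]; field_simp) (fun i _ => h0 i)
  simp only [smul_eq_mul] at hJ
  rw [← Finset.mul_sum, ← Finset.mul_sum, hsumS, mul_one] at hJ
  have h2 : Real.negMulLog (1 / (S.card : ℝ)) = (1 / (S.card : ℝ)) * Real.log S.card := by
    rw [Real.negMulLog, one_div, Real.log_inv]
    ring
  rw [h2] at hJ
  exact le_of_mul_le_mul_left hJ hk'

end Vale.Agent.Lib.P356.H45
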